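import Vale.Agent.P050.H148.Defs

/-!
Statement-level definitions.
-/

namespace Vale.Agent.P050.V3

open Vale.Agent.P050.H148

/-- The graph `moebiusLadder k` without the edges between `(i, false)` and `(i, true)`, `i ∈ D`:
for odd `k ≥ 3` and a set `D` of numbers smaller than `k`, the Moebius ladder with `k` rungs, the
rungs `i ∈ D` being deleted. -/
def cutAt (k : ℕ) (D : Finset ℕ) : SimpleGraph (ZMod k × Bool) :=
  (moebiusLadder k).deleteEdges
    {e | ∃ i ∈ D, e = s(((i : ZMod k), false), ((i : ZMod k), true))}

end Vale.Agent.P050.V3
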