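import Vale.Agent.P050.H222.GG
import Vale.Agent.P050.V3.Defs

/-!
The statements for arbitrary deleted rungs.
-/

set_option linter.unusedSectionVars false

namespace Vale.Agent.P050.V3

open Finset Vale.Agent.P050.H148 Vale.Agent.P050.Cart Vale.Agent.P050.M18 Vale.Agent.P050.H546
open Vale.Agent.P050.H222

/-- the number of ladders of length `n` from `R`; the rung number `i ≥ 1` is present if `P i` -/
def zl {U : Type} [Fintype U] [DecidableEq U] (A : U → U → ℝ) (P : ℕ → Bool) :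
    ℕ → U × U → U × U → ℝ :=
  zpn fun j x y => A x.1 y.1 * A x.2 y.2 * (if P (j + 1) then A y.1 y.2 else 1)

/-- a step of length `l`, with a rung at its end -/
def KL {U : Type} [Fintype U] [DecidableEq U] (A : U → U → ℝ) (l : ℕ) (x y : U × U) : ℝ :=
  zp A l x.1 y.1 * zp A l x.2 y.2 * A y.1 y.2

/-- number of rungs `1, ..., n` -/
def nr (P : ℕ → Bool) (n : ℕ) : ℕ := ((range n).filter fun i => P (i + 1)).card

/-- number of squares -/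
def ns (P : ℕ → Bool) (n : ℕ) : ℕ := ((range n).filter fun i => P i ∧ P (i + 1)).card

/-- a law of a ladder: `F` is the law of the first rung and the last rung; `Z` is the number of
ladders -/
structure Lad {U : Type} [Fintype U] (Q : U × U → ℝ) (n : ℕ) (Z : U × U → U × U → ℝ)
    (F : (U × U) × (U × U) → ℝ) (v : ℝ) : Prop where
  lab : Lab Q F
  low : mar F (fun x => (x.1, x.2.2)) = mar (PP Q n) (fun x => (x.1, x.2.2))
  sup : ∀ x, F x ≠ 0 → Z x.1 x.2 ≠ 0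
  va : v ≤ Cart.ent F (fun x => x) + ∑ x, F x * Real.log (Z x.1 x.2)

/-- [LONG] a step of length `l`: `g` = end of a walk of length `l - 1` from the second vertex `f` of
the last rung `(s, f)`, `f'` = neighbour of `g`, `s'` = copy of `g` given `(s, f')` (`cop`); the new
rung is `(s', f')`; `(s, s') ~ (s, g) ~ EE Q l`, `(f, f') ~ EE Q l`, `(s', f') ~ (g, f') ~ Q`,
`(s, f') ~ EE Q (l + 1)`; mean logarithms by `GValStmt` -/
def LongStmt : Prop := ∀ (U : Type) [Fintype U] [DecidableEq U] (A : U → U → ℝ) (Q : U × U → ℝ),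
  Edge Q → (∀ x y, 0 ≤ A x y) → (∀ x y, Q (x, y) ≠ 0 → A x y = 1) →
  ∀ (n l : ℕ) (Z : U × U → U × U → ℝ) (F : (U × U) × (U × U) → ℝ) (v : ℝ), 1 ≤ l →
  (∀ x y, 0 ≤ Z x y) → Lad Q n Z F v →
  ∃ F', Lad Q (n + l) (fun R y => ∑ x, Z R x * KL A l x y) F'
    (v + (2 * l + 1) * hQ Q - 2 * l * aQ Q - hh Q (l + 1))

/-- [LADS] by induction over the last rung, from `LongStmt` and `GInfStmt` -/
def LadsStmt : Prop := ∀ (U : Type) [Fintype U] [DecidableEq U] (A : U → U → ℝ) (Q : U × U → ℝ),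
  Edge Q → (∀ x y, 0 ≤ A x y) → (∀ x y, Q (x, y) ≠ 0 → A x y = 1) →
  ∀ (P : ℕ → Bool) (n : ℕ), P 0 = true → P n = true →
  ∃ F, Lad Q n (zl A P n) F (hQ Q + (2 * n + nr P n) * hQ Q - (2 * n + 2 * nr P n) * aQ Q +
    ns P n * (2 * aQ Q - h2Q Q))

/-- as `G2`, with two ladders `F1`, `F2` in place of `PP Q n` and `PP Q (n + L)` -/
structure G3 {U Ω : Type} [Fintype U] [DecidableEq U] [Fintype Ω] (Q : U × U → ℝ) (n L : ℕ)
    (F1 F2 : (U × U) × (U × U) → ℝ)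
    (P : Ω → ℝ) (R a b : Ω → U × U) (d e : Ω → U) : Prop where
  nn : ∀ ω, 0 ≤ P ω
  tot : ∑ ω, P ω = 1
  la : mar P (fun ω => (R ω, a ω)) = F1
  lb : mar P (fun ω => (R ω, b ω)) = F2
  sud : ∀ ω, P ω ≠ 0 → Q ((b ω).2, d ω) ≠ 0
  sve : ∀ ω, P ω ≠ 0 → Q ((a ω).2, e ω) ≠ 0
  lue : mar P (fun ω => ((b ω).2, e ω)) = EE Q (L - 1)
  ldv : mar P (fun ω => (d ω, (a ω).2)) = EE Q (L - 1)
  ent : Cart.ent F1 (fun x => x) + Cart.ent F2 (fun x => x) + hh Q L - aQ Q - hB Q (n + L) +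
    2 * (hQ Q + hh Q (L - 1) - aQ Q - hh Q L) ≤ ent P (fun ω => (R ω, a ω, b ω, d ω, e ω))
  e1 : hB Q (n + 1) - hB Q (n + L) + 2 * hQ Q + 2 * hh Q (L - 1) - 2 * aQ Q - hh Q L ≤
    Cart.ent P (fun ω => (((b ω).1, d ω, e ω), (b ω).2))
  e2 : 2 * hQ Q + 2 * hh Q (L - 1) - 2 * aQ Q - hh Q L ≤
    Cart.ent P (fun ω => (((a ω).1, e ω, d ω), (a ω).2))

/-- [BASE3] `H546.GBase` with `F1`, `F2` -/
def Base3Stmt : Prop := ∀ (U : Type) [Fintype U] [DecidableEq U] (Q : U × U → ℝ), Edge Q →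
  ∀ (n L : ℕ) (F1 F2 : (U × U) × (U × U) → ℝ), 2 ≤ L → Lab Q F1 → Lab Q F2 →
  mar F1 (fun x => (x.1, x.2.2)) = mar (PP Q n) (fun x => (x.1, x.2.2)) →
  mar F2 (fun x => (x.1, x.2.2)) = mar (PP Q (n + L)) (fun x => (x.1, x.2.2)) →
  ∃ (Ω : Type) (_ : Fintype Ω) (P : Ω → ℝ) (R a b : Ω → U × U) (d e : Ω → U),
    G3 Q n L F1 F2 P R a b d e

/-- the number of the graphs -/
def nZ {U : Type} [Fintype U] [DecidableEq U] (A : U → U → ℝ) (Z1 Z2 : U × U → U × U → ℝ)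
    (L : ℕ) : ℝ :=
  ∑ R : U × U, ∑ a, ∑ b, A R.1 R.2 * ((∑ x, Z1 R x * KL A 1 x a) * (∑ x, Z2 R x * KL A 1 x b)) *
    cj A (L - 1) b a

/-- [CLOSE3] `H762.GClose` with `F1`, `F2` -/
def Close3Stmt : Prop := ∀ (U Ω : Type) [Fintype U] [DecidableEq U] [Fintype Ω]
  (A : U → U → ℝ) (Q : U × U → ℝ) (Z1 Z2 : U × U → U × U → ℝ) (F1 F2 : (U × U) × (U × U) → ℝ)
  (v1 v2 : ℝ) (P : Ω → ℝ) (R a b : Ω → U × U) (d e : Ω → U) (n L : ℕ), 2 ≤ L → Edge Q →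
  (∀ x y, 0 ≤ A x y) → (∀ x y, Q (x, y) ≠ 0 → A x y = 1) → (∀ x y, 0 ≤ Z1 x y) →
  (∀ x y, 0 ≤ Z2 x y) → Lad Q n Z1 F1 v1 → Lad Q (n + L) Z2 F2 v2 →
  G3 Q n L F1 F2 P R a b d e →
  0 < nZ A Z1 Z2 L ∧ v1 + v2 + (2 * L + 4) * hQ Q + 4 * hh Q (L - 1) - 3 * hh Q L -
    (2 * L + 9) * aQ Q + hB Q (n + 1) - 2 * hB Q (n + L) ≤ Real.log (nZ A Z1 Z2 L)

/-- the number of Moebius ladders with `2 n + 2 t + 5` rungs, cut; `R` is the centre rung -/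
def nD {U : Type} [Fintype U] [DecidableEq U] (A : U → U → ℝ) (P1 P2 : ℕ → Bool)
    (n t : ℕ) : ℝ :=
  ∑ R : U × U, ∑ a, ∑ b, A R.1 R.2 * (zl A P1 (n + 1) R a * zl A P2 (n + t + 3) R b) *
    cj A (t + 1) b a

/-- [SUM3] from all these; slack `(ns + ns - 5) (2 a - h_2)` -/
def Ent3Stmt : Prop := ∀ (U : Type) [Fintype U] [DecidableEq U]
  (A : U → U → ℝ) (Q : U × U → ℝ), Edge Q → (∀ x y, 0 ≤ A x y) →
  (∀ x y, Q (x, y) ≠ 0 → A x y = 1) → ∀ (n t : ℕ) (P1 P2 : ℕ → Bool), 1 ≤ n → 1 ≤ t →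
  P1 0 = true → P2 0 = true → P1 n = true → P2 (n + t + 2) = true →
  P1 (n + 1) = true → P2 (n + t + 3) = true → 5 ≤ ns P1 n + ns P2 (n + t + 2) →
  0 < nD A P1 P2 n t ∧
    (4 * n + 4 * t + 13 + nr P1 n + nr P2 (n + t + 2)) * hQ Q -
      (4 * n + 4 * t + 16 + 2 * (nr P1 n + nr P2 (n + t + 2))) * aQ Q ≤
    Real.log (nD A P1 P2 n t)

/-- [GRAPH3] the graph side; the centre is `n + 2 t + 3` -/
def Graph3Stmt : Prop := ∀ (X : Type) [Fintype X] [Nonempty X] [DecidableEq X]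
  (G : SimpleGraph X) (n t : ℕ) (D : Finset ℕ), 1 ≤ t → range t ⊆ D → D ⊆ range (2 * n + 2 * t + 5) →
  t ∉ D → n + 2 * t + 3 ∉ D →
  homDensity (cutAt (2 * n + 2 * t + 5) D) G * (Fintype.card X : ℝ) ^ (2 * (2 * n + 2 * t + 5)) =
    nD (adj G) (fun i => decide (n + 2 * t + 3 + i ∉ D)) (fun i => decide (n + 2 * t + 3 - i ∉ D))
      n t

/-- [FIN3] the theorem -/
def Final3Stmt : Prop := ∀ (X : Type) [Fintype X] [Nonempty X] (G : SimpleGraph X) (k t : ℕ)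
  (D : Finset ℕ), Odd k → 1 ≤ t → 2 * t + 7 ≤ k → D ⊆ range k → range t ⊆ D →
  t ∉ D → t + 1 ∉ D → (k + 2 * t + 1) / 2 ∉ D → k - 2 ∉ D → k - 1 ∉ D →
  5 ≤ ((Ico (t + 1) (k - 2)).filter fun i => i ∉ D ∧ i + 1 ∉ D).card →
  edgeDensity G ^ (3 * k - D.card) ≤ homDensity (cutAt k D) G

end Vale.Agent.P050.V3
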